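import Mathlib

namespace Vale.Agent.AP4
open Finset

/-- residues `S` modulo `M` with a weight `f < R` that is strictly convex along 4-term
progressions modulo `M` -/
def Blk (M R : ℕ) (S : Finset ℕ) (f : ℕ → ℕ) : Prop :=
  (∀ x ∈ S, x < M ∧ f x < R) ∧
  ∀ x0 ∈ S, ∀ x1 ∈ S, ∀ x2 ∈ S, ∀ x3 ∈ S, (M : ℤ) ∣ (x0 : ℤ) - 2 * x1 + x2 →
    (M : ℤ) ∣ (x1 : ℤ) - 2 * x2 + x3 →
    f x1 + f x2 ≤ f x0 + f x3 ∧ (f x1 + f x2 = f x0 + f x3 → x0 = x1)

lemma crt {M1 M2 R1 R2 : ℕ} {S1 S2 : Finset ℕ} {f1 f2 : ℕ → ℕ} (hc : Nat.Coprime M1 M2)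
    (h1 : Blk M1 R1 S1 f1) (h2 : Blk M2 R2 S2 f2) :
    ∃ S f, Blk (M1 * M2) (R1 + R2) S f ∧ S.card = S1.card * S2.card := by
  refine ⟨(range (M1 * M2)).filter (fun x => x % M1 ∈ S1 ∧ x % M2 ∈ S2),
    fun x => f1 (x % M1) + f2 (x % M2), ⟨?_, ?_⟩, ?_⟩
  · intro x hx
    simp only [Finset.mem_filter, Finset.mem_range] at hx
    have := h1.1 _ hx.2.1
    have := h2.1 _ hx.2.2
    simp only at *
    omega
  · intro x0 hx0 x1 hx1 x2 hx2 x3 hx3 hz hw
    simp only [Finset.mem_filter, Finset.mem_range] at hx0 hx1 hx2 hx3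
    push_cast at hz hw
    have red : ∀ M x y z : ℕ, (M : ℤ) ∣ (x : ℤ) - 2 * y + z →
        (M : ℤ) ∣ ((x % M : ℕ) : ℤ) - 2 * ((y % M : ℕ) : ℤ) + ((z % M : ℕ) : ℤ) := by
      intro M x y z hM
      have e1 : (M : ℤ) ∣ (x : ℤ) - ((x % M : ℕ) : ℤ) := (Nat.mod_modEq x M).dvd
      have e2 : (M : ℤ) ∣ (y : ℤ) - ((y % M : ℕ) : ℤ) := (Nat.mod_modEq y M).dvd
      have e3 : (M : ℤ) ∣ (z : ℤ) - ((z % M : ℕ) : ℤ) := (Nat.mod_modEq z M).dvd
      have := Int.dvd_sub (Int.dvd_add (Int.dvd_sub hM e1) (e2.mul_left 2)) e3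
      have e : (x : ℤ) - 2 * y + z - ((x : ℤ) - ((x % M : ℕ) : ℤ))
          + 2 * ((y : ℤ) - ((y % M : ℕ) : ℤ)) - ((z : ℤ) - ((z % M : ℕ) : ℤ))
          = ((x % M : ℕ) : ℤ) - 2 * ((y % M : ℕ) : ℤ) + ((z % M : ℕ) : ℤ) := by ring
      rwa [e] at this
    have a1 := h1.2 _ hx0.2.1 _ hx1.2.1 _ hx2.2.1 _ hx3.2.1
      (red M1 _ _ _ ((Dvd.intro _ rfl).trans hz)) (red M1 _ _ _ ((Dvd.intro _ rfl).trans hw))
    have a2 := h2.2 _ hx0.2.2 _ hx1.2.2 _ hx2.2.2 _ hx3.2.2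
      (red M2 _ _ _ ((Dvd.intro_left _ rfl).trans hz))
      (red M2 _ _ _ ((Dvd.intro_left _ rfl).trans hw))
    simp only
    refine ⟨by omega, fun h => ?_⟩
    have e1 := a1.2 (by omega)
    have e2 := a2.2 (by omega)
    have : x0 ≡ x1 [MOD M1 * M2] := (Nat.modEq_and_modEq_iff_modEq_mul hc).1 ⟨e1, e2⟩
    exact Nat.ModEq.eq_of_lt_of_lt this hx0.1 hx1.1
  · rw [← Finset.card_product]
    apply Finset.card_bij (fun x _ => (x % M1, x % M2))
    · intro x hx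
      simp only [Finset.mem_filter, Finset.mem_range] at hx
      simp [hx.2.1, hx.2.2]
    · intro x hx y hy hxy
      simp only [Finset.mem_filter, Finset.mem_range] at hx hy
      simp only [Prod.mk.injEq] at hxy
      have : x ≡ y [MOD M1 * M2] := (Nat.modEq_and_modEq_iff_modEq_mul hc).1 ⟨hxy.1, hxy.2⟩
      exact Nat.ModEq.eq_of_lt_of_lt this hx.1 hy.1
    · rintro ⟨u, v⟩ huv
      simp only [Finset.mem_product] at huv
      have p1 := (h1.1 u huv.1).1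
      have p2 := (h2.1 v huv.2).1
      have hlt := Nat.chineseRemainder_lt_mul hc u v (by omega) (by omega)
      have q := (Nat.chineseRemainder hc u v).2
      have q1 : (Nat.chineseRemainder hc u v : ℕ) % M1 = u := by
        have := q.1; unfold Nat.ModEq at this; rw [this, Nat.mod_eq_of_lt p1]
      have q2 : (Nat.chineseRemainder hc u v : ℕ) % M2 = v := by
        have := q.2; unfold Nat.ModEq at this; rw [this, Nat.mod_eq_of_lt p2]
      refine ⟨Nat.chineseRemainder hc u v, ?_, by simp [q1, q2]⟩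
      simp only [Finset.mem_filter, Finset.mem_range]
      exact ⟨hlt, by rw [q1]; exact huv.1, by rw [q2]; exact huv.2⟩

lemma pattern (p y0 y1 y2 y3 s0 s1 s2 s3 : ℤ) (hp : p % 2 = 1)
    (a0 : 3 * y0 < p) (a1 : 3 * y1 < p) (a2 : 3 * y2 < p) (a3 : 3 * y3 < p)
    (a0' : -p < 3 * y0) (a1' : -p < 3 * y1) (a2' : -p < 3 * y2) (a3' : -p < 3 * y3)
    (e0 : s0 = y0 % 2) (e1 : s1 = y1 % 2) (e2 : s2 = y2 % 2) (e3 : s3 = y3 % 2)
    (b1 : s1 = 1 → 9 * y1 < 2 * p ∧ -(2 * p) < 9 * y1)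
    (b2 : s2 = 1 → 9 * y2 < 2 * p ∧ -(2 * p) < 9 * y2)
    (b0 : s0 = 1 → 9 * y0 < 2 * p ∧ -(2 * p) < 9 * y0)
    (b3 : s3 = 1 → 9 * y3 < 2 * p ∧ -(2 * p) < 9 * y3)
    (u1 : y0 - 2 * y1 + y2 = -p ∨ y0 - 2 * y1 + y2 = 0 ∨ y0 - 2 * y1 + y2 = p)
    (u2 : y1 - 2 * y2 + y3 = -p ∨ y1 - 2 * y2 + y3 = 0 ∨ y1 - 2 * y2 + y3 = p)
    (hg : ¬ (y0 - 2 * y1 + y2 = 0 ∧ y1 - 2 * y2 + y3 = 0)) : s1 + s2 + 1 ≤ s0 + s3 := by
  have v1 : s0 + s2 = 1 ↔ y0 - 2 * y1 + y2 ≠ 0 := by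
    clear b0 b1 b2 b3 hg u2 e1 e3 a0 a1 a2 a3 a0' a1' a2' a3'
    omega
  have v2 : s1 + s3 = 1 ↔ y1 - 2 * y2 + y3 ≠ 0 := by
    clear b0 b1 b2 b3 hg u1 e0 e2 a0 a1 a2 a3 a0' a1' a2' a3' v1
    omega
  have w0 : s0 = 0 ∨ s0 = 1 := by omega
  have w1 : s1 = 0 ∨ s1 = 1 := by omega
  have w2 : s2 = 0 ∨ s2 = 1 := by omega
  have w3 : s3 = 0 ∨ s3 = 1 := by omega
  clear e0 e1 e2 e3 hp
  rcases w0 with rfl | rfl <;> rcases w1 with rfl | rfl <;> rcases w2 with rfl | rfl <;>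
    rcases w3 with rfl | rfl <;> simp only [forall_const, zero_ne_one, false_imp_iff] at b0 b1 b2 b3 <;>
    omega

/-- the integer core of the two-interval block -/
lemma core (p y0 y1 y2 y3 s0 s1 s2 s3 : ℤ) (hp : p % 2 = 1)
    (a0 : 3 * |y0| < p) (a1 : 3 * |y1| < p) (a2 : 3 * |y2| < p) (a3 : 3 * |y3| < p)
    (e0 : s0 = y0 % 2) (e1 : s1 = y1 % 2) (e2 : s2 = y2 % 2) (e3 : s3 = y3 % 2)
    (b0 : s0 = 1 → 9 * |y0| < 2 * p) (b1 : s1 = 1 → 9 * |y1| < 2 * p)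
    (b2 : s2 = 1 → 9 * |y2| < 2 * p) (b3 : s3 = 1 → 9 * |y3| < 2 * p)
    (h1 : p ∣ y0 - 2 * y1 + y2) (h2 : p ∣ y1 - 2 * y2 + y3) :
    (y1 ^ 2 + p ^ 2 * s1) + (y2 ^ 2 + p ^ 2 * s2) ≤ (y0 ^ 2 + p ^ 2 * s0) + (y3 ^ 2 + p ^ 2 * s3) ∧
    ((y1 ^ 2 + p ^ 2 * s1) + (y2 ^ 2 + p ^ 2 * s2) = (y0 ^ 2 + p ^ 2 * s0) + (y3 ^ 2 + p ^ 2 * s3)
      → y0 = y1) := by
  have hp0 : 0 < p := by have := abs_nonneg y0; omega
  have small : ∀ u : ℤ, p ∣ u → |u| < 2 * p → u = -p ∨ u = 0 ∨ u = p := by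
    rintro u ⟨m, rfl⟩ hu
    rw [abs_lt] at hu
    have m1 : m < 2 := by nlinarith
    have m2 : -2 < m := by nlinarith
    have : m = -1 ∨ m = 0 ∨ m = 1 := by omega
    rcases this with rfl | rfl | rfl <;> simp
  have c0 := le_abs_self y0
  have c1 := le_abs_self y1
  have c2 := le_abs_self y2
  have c3 := le_abs_self y3
  have d0 := neg_abs_le y0
  have d1 := neg_abs_le y1
  have d2 := neg_abs_le y2
  have d3 := neg_abs_le y3
  have u1 := small _ h1 (by rw [abs_lt]; constructor <;> omega)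
  have u2 := small _ h2 (by rw [abs_lt]; constructor <;> omega)
  by_cases hg : y0 - 2 * y1 + y2 = 0 ∧ y1 - 2 * y2 + y3 = 0
  · obtain ⟨g1, g2⟩ := hg
    have k2 : y2 = 2 * y1 - y0 := by omega
    have k3 : y3 = 3 * y1 - 2 * y0 := by omega
    have t1 : s2 = s0 := by omega
    have t2 : s3 = s1 := by omega
    rw [t1, t2, k2, k3]
    refine ⟨by nlinarith [sq_nonneg (y1 - y0)], fun h => ?_⟩
    have : (y1 - y0) ^ 2 = 0 := by nlinarith
    have := pow_eq_zero_iff (two_ne_zero) |>.1 this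
    omega
  · have t : s1 + s2 + 1 ≤ s0 + s3 :=
      pattern p y0 y1 y2 y3 s0 s1 s2 s3 hp (by linarith) (by linarith) (by linarith) (by linarith)
        (by linarith) (by linarith) (by linarith) (by linarith) e0 e1 e2 e3
        (fun h => ⟨by linarith [b1 h], by linarith [b1 h]⟩)
        (fun h => ⟨by linarith [b2 h], by linarith [b2 h]⟩)
        (fun h => ⟨by linarith [b0 h], by linarith [b0 h]⟩)
        (fun h => ⟨by linarith [b3 h], by linarith [b3 h]⟩) u1 u2 hg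
    clear u1 u2 hg b0 b1 b2 b3 e0 e1 e2 e3 c0 c1 c2 c3 d0 d1 d2 d3 small h1 h2
    have q1 : 9 * y1 ^ 2 < p ^ 2 := by
      have := sq_abs y1
      nlinarith [abs_nonneg y1]
    have q2 : 9 * y2 ^ 2 < p ^ 2 := by
      have := sq_abs y2
      nlinarith [abs_nonneg y2]
    have q3 : p ^ 2 * (s1 + s2 + 1) ≤ p ^ 2 * (s0 + s3) :=
      mul_le_mul_of_nonneg_left t (sq_nonneg p)
    have := sq_nonneg y0
    have := sq_nonneg y3
    have := sq_nonneg y1
    constructor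
    · nlinarith
    · intro h; exfalso; nlinarith

lemma base (p : ℕ) (hp : p % 2 = 1) :
    ∃ S f, Blk p (2 * p ^ 2) S f ∧ 5 * p ≤ 9 * S.card + 27 := by
  classical
  set c : ℕ := p / 2 with hc
  let Y : ℕ → ℤ := fun r => (r : ℤ) - c
  let S : Finset ℕ := (range p).filter
    (fun r => 3 * |Y r| < p ∧ (Y r % 2 = 1 → 9 * |Y r| < 2 * p))
  let f : ℕ → ℕ := fun r => (Y r ^ 2 + (p : ℤ) ^ 2 * (Y r % 2)).toNat
  have hf : ∀ r, (f r : ℤ) = Y r ^ 2 + (p : ℤ) ^ 2 * (Y r % 2) := by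
    intro r
    apply Int.toNat_of_nonneg
    have : 0 ≤ Y r % 2 := by omega
    positivity
  refine ⟨S, f, ⟨?_, ?_⟩, ?_⟩
  · intro x hx
    simp only [S, Finset.mem_filter, Finset.mem_range] at hx
    refine ⟨hx.1, ?_⟩
    have h1 := hf x
    have h2 : Y x % 2 ≤ 1 := by omega
    have h3 : 9 * Y x ^ 2 < (p : ℤ) ^ 2 := by
      have := sq_abs (Y x)
      nlinarith [abs_nonneg (Y x), hx.2.1]
    have h4 : (p : ℤ) ^ 2 * (Y x % 2) ≤ (p : ℤ) ^ 2 * 1 :=
      mul_le_mul_of_nonneg_left h2 (sq_nonneg _)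
    have : (f x : ℤ) < 2 * (p : ℤ) ^ 2 := by nlinarith [sq_nonneg (Y x)]
    exact_mod_cast this
  · intro x0 hx0 x1 hx1 x2 hx2 x3 hx3 hz hw
    simp only [S, Finset.mem_filter, Finset.mem_range] at hx0 hx1 hx2 hx3
    have := core p (Y x0) (Y x1) (Y x2) (Y x3) _ _ _ _ (by omega) hx0.2.1 hx1.2.1 hx2.2.1 hx3.2.1
      rfl rfl rfl rfl hx0.2.2 hx1.2.2 hx2.2.2 hx3.2.2
      (by convert hz using 1; simp only [Y]; ring) (by convert hw using 1; simp only [Y]; ring)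
    rw [← hf, ← hf, ← hf, ← hf] at this
    refine ⟨by exact_mod_cast this.1, fun h => ?_⟩
    have := this.2 (by exact_mod_cast h)
    simp only [Y] at this
    omega
  · set K1 := (p - 1) / 6 with hK1
    set K2 := p / 9 with hK2
    let E : Finset ℕ := (range (2 * K1 + 1)).image (fun k => c - 2 * K1 + 2 * k)
    let O : Finset ℕ := (range (2 * K2)).image (fun k => c - 2 * K2 + 2 * k + 1)
    have hE : E.card = 2 * K1 + 1 := by
      rw [Finset.card_image_of_injective _ (fun a b h => by beta_reduce at h; omega)]; simp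
    have hO : O.card = 2 * K2 := by
      rw [Finset.card_image_of_injective _ (fun a b h => by beta_reduce at h; omega)]; simp
    have hd : Disjoint E O := by
      rw [Finset.disjoint_left]
      intro x hx hy
      simp only [E, O, Finset.mem_image, Finset.mem_range] at hx hy
      obtain ⟨a, ha, rfl⟩ := hx
      obtain ⟨b, hb, hab⟩ := hy
      omega
    have hsub : E ∪ O ⊆ S := by
      intro x hx
      simp only [S, Y, Finset.mem_filter, Finset.mem_range]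
      rcases Finset.mem_union.1 hx with hx | hx
      · simp only [E, Finset.mem_image, Finset.mem_range] at hx
        obtain ⟨a, ha, rfl⟩ := hx
        rcases abs_cases (((c - 2 * K1 + 2 * a : ℕ) : ℤ) - c) with h | h <;> rw [h.1] <;> omega
      · simp only [O, Finset.mem_image, Finset.mem_range] at hx
        obtain ⟨a, ha, rfl⟩ := hx
        rcases abs_cases (((c - 2 * K2 + 2 * a + 1 : ℕ) : ℤ) - c) with h | h <;>
          rw [h.1] <;> omega
    have := Finset.card_le_card hsub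
    rw [Finset.card_union_of_disjoint hd, hE, hO] at this
    omega

/-- from a block to a progression-free subset of an interval -/
lemma extract {M R N : ℕ} {S : Finset ℕ} {f : ℕ → ℕ} (h : Blk M R S f) (hN : 1 ≤ N)
    (hNM : N ≤ M) (hR : 1 ≤ R) :
    ∃ A : Finset ℕ, A ⊆ Finset.Icc 1 N ∧
      (∀ a d : ℕ, 0 < d → ¬ (a ∈ A ∧ a + d ∈ A ∧ a + 2 * d ∈ A ∧ a + 3 * d ∈ A)) ∧
      (S.card : ℝ) * N ≤ 2 * R * M * A.card := by
  classical
  have hmaps : ∀ x ∈ S, (f x, x / N) ∈ range R ×ˢ range (M / N + 1) := by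
    intro x hx
    have := h.1 x hx
    simp only [Finset.mem_product, Finset.mem_range]
    exact ⟨this.2, Nat.lt_succ_of_le (Nat.div_le_div_right this.1.le)⟩
  have hne : (range R ×ˢ range (M / N + 1)).Nonempty := ⟨(0, 0), by simp; omega⟩
  have hcpos : (0 : ℝ) < (R : ℝ) * ((M / N + 1 : ℕ) : ℝ) := by
    have : (0 : ℝ) < R := by exact_mod_cast hR
    positivity
  obtain ⟨⟨t, j⟩, -, hk⟩ := Finset.exists_le_sum_fiber_of_maps_to_of_nsmul_le_sum
    (f := fun x => (f x, x / N)) (w := fun _ => (1 : ℝ))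
    (b := (S.card : ℝ) / ((R : ℝ) * ((M / N + 1 : ℕ) : ℝ))) hmaps hne
    (by
      simp only [Finset.card_product, Finset.card_range, nsmul_eq_mul, Finset.sum_const, mul_one]
      rw [Nat.cast_mul, mul_div_cancel₀ _ hcpos.ne'])
  simp only [Finset.sum_const, nsmul_eq_mul, mul_one] at hk
  set S' := S.filter (fun x => (f x, x / N) = (t, j)) with hS'
  have hmem : ∀ x ∈ S', x ∈ S ∧ f x = t ∧ N * j ≤ x ∧ x < N * j + N := by
    intro x hx
    rw [hS', Finset.mem_filter, Prod.mk.injEq] at hx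
    refine ⟨hx.1, hx.2.1, ?_, ?_⟩
    · rw [← hx.2.2]; exact Nat.mul_div_le x N
    · rw [← hx.2.2]; exact Nat.lt_mul_div_succ x hN |>.trans_le (by rw [mul_add, mul_one])
  refine ⟨S'.image (fun x => x + 1 - N * j), ?_, ?_, ?_⟩
  · intro x hx
    simp only [Finset.mem_image] at hx
    obtain ⟨u, hu, rfl⟩ := hx
    have := hmem u hu
    rw [Finset.mem_Icc]
    omega
  · rintro a d hd ⟨h0, h1, h2, h3⟩
    simp only [Finset.mem_image] at h0 h1 h2 h3
    obtain ⟨x0, m0, e0⟩ := h0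
    obtain ⟨x1, m1, e1⟩ := h1
    obtain ⟨x2, m2, e2⟩ := h2
    obtain ⟨x3, m3, e3⟩ := h3
    have n0 := hmem x0 m0
    have n1 := hmem x1 m1
    have n2 := hmem x2 m2
    have n3 := hmem x3 m3
    have z1 : (x0 : ℤ) - 2 * x1 + x2 = 0 := by omega
    have z2 : (x1 : ℤ) - 2 * x2 + x3 = 0 := by omega
    have := (h.2 x0 n0.1 x1 n1.1 x2 n2.1 x3 n3.1 (by rw [z1]; simp) (by rw [z2]; simp)).2
      (by omega)
    omega
  · rw [Finset.card_image_of_injOn (fun u hu v hv huv => by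
      have := hmem u hu
      have := hmem v hv
      beta_reduce at huv
      omega)]
    rw [div_le_iff₀ hcpos] at hk
    have e : (M / N + 1) * N ≤ 2 * M := by
      have := Nat.div_mul_le_self M N
      nlinarith
    have e' : ((M / N + 1 : ℕ) : ℝ) * N ≤ 2 * M := by exact_mod_cast e
    calc (S.card : ℝ) * N ≤ S'.card * ((R : ℝ) * ((M / N + 1 : ℕ) : ℝ)) * N := by gcongr
      _ = S'.card * R * (((M / N + 1 : ℕ) : ℝ) * N) := by ring
      _ ≤ S'.card * R * (2 * M) := by gcongr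
      _ = _ := by ring

/-- product over a set of odd primes of prime-power blocks -/
lemma prod_blk (q B : ℕ) (θ : ℝ) (hθ : 0 ≤ θ) (hq : 1 ≤ q)
    (hθq : ∀ p : ℕ, q ≤ p → 9 * θ * p + 27 ≤ 5 * p) (P : Finset ℕ)
    (hP : ∀ r ∈ P, r.Prime ∧ r ≠ 2 ∧ r ≤ B) :
    ∃ M S f, Blk M (P.card * (2 * (B * q) ^ 2) + 1) S f ∧ q ^ P.card ≤ M ∧
      θ ^ P.card * M ≤ S.card ∧ ∃ e, M ∣ (∏ r ∈ P, r) ^ e := by
  classical
  induction P using Finset.induction_on with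
  | empty =>
    refine ⟨1, {0}, fun _ => 0, ⟨by simp, ?_⟩, by simp, by simp, 0, by simp⟩
    intro x0 h0 x1 h1 x2 _ x3 _ _ _
    simp only [Finset.mem_singleton] at h0 h1
    simp [h0, h1]
  | insert r P hr ih =>
    obtain ⟨M, S, f, hb, hM, hS, e, he⟩ := ih (fun s hs => hP s (Finset.mem_insert_of_mem hs))
    obtain ⟨hpr, hr2, hrB⟩ := hP r (Finset.mem_insert_self _ _)
    set j := Nat.log r q + 1 with hj
    have p1 : q < r ^ j := Nat.lt_pow_succ_log_self hpr.one_lt q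
    have p2 : r ^ j ≤ B * q := by
      rw [hj, pow_succ']
      exact Nat.mul_le_mul hrB (Nat.pow_log_le_self r (by omega))
    have hodd : r ^ j % 2 = 1 := Nat.odd_iff.1 ((hpr.odd_of_ne_two hr2).pow)
    obtain ⟨S1, f1, hb1, hc1⟩ := base (r ^ j) hodd
    have hcop : Nat.Coprime (r ^ j) M := by
      refine Nat.Coprime.coprime_dvd_right he (Nat.Coprime.pow _ _ ?_)
      refine Nat.Coprime.prod_right fun s hs => ?_
      refine (Nat.coprime_primes hpr (hP s (Finset.mem_insert_of_mem hs)).1).2 ?_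
      rintro rfl
      exact hr hs
    obtain ⟨S2, f2, hb2, hc2⟩ := crt hcop hb1 hb
    refine ⟨r ^ j * M, S2, f2, ⟨fun x hx => ⟨(hb2.1 x hx).1, (hb2.1 x hx).2.trans_le ?_⟩, hb2.2⟩,
      ?_, ?_, j + e, ?_⟩
    · rw [Finset.card_insert_of_notMem hr]
      have : (r ^ j) ^ 2 ≤ (B * q) ^ 2 := Nat.pow_le_pow_left p2 2
      nlinarith
    · rw [Finset.card_insert_of_notMem hr, pow_succ']
      exact Nat.mul_le_mul p1.le hM
    · rw [Finset.card_insert_of_notMem hr, hc2]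
      have k1 := hθq (r ^ j) p1.le
      have k2 : 5 * ((r ^ j : ℕ) : ℝ) ≤ 9 * S1.card + 27 := by exact_mod_cast hc1
      have k3 : θ * ((r ^ j : ℕ) : ℝ) ≤ S1.card := by linarith
      rw [Nat.cast_mul, Nat.cast_mul]
      calc θ ^ (P.card + 1) * (((r ^ j : ℕ) : ℝ) * M)
          = (θ * ((r ^ j : ℕ) : ℝ)) * (θ ^ P.card * M) := by ring
        _ ≤ _ := by gcongr
    · rw [Finset.prod_insert hr, mul_pow]
      exact mul_dvd_mul (pow_dvd_pow _ (by omega)) (he.trans (pow_dvd_pow _ (by omega)))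

end Vale.Agent.AP4
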