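import Vale.Agent.AP4.Core

namespace Vale.Agent.AP4
open Finset Filter

lemma primes_exist (d : ℕ) (hd : 6 ≤ d) :
    ∃ P : Finset ℕ, P.card = d ∧ ∀ r ∈ P, r.Prime ∧ r ≠ 2 ∧ r ≤ d ^ 3 := by
  have h1 := Chebyshev.pi_ge (d ^ 3)
  have hd' : (6 : ℝ) ≤ d := by exact_mod_cast hd
  have hl : Real.log d ≤ d := (Real.log_le_sub_one_of_pos (by linarith)).trans (by linarith)
  have hlpos : 0 < Real.log d := Real.log_pos (by linarith)
  have hl2 : Real.log (((d ^ 3 : ℕ) : ℝ) + 1) ≤ 3 * d := by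
    have : Real.log (((d ^ 3 : ℕ) : ℝ) + 1) ≤ Real.log (((d : ℝ) + 1) ^ 3) := by
      apply Real.log_le_log (by positivity)
      push_cast
      nlinarith
    rw [Real.log_pow] at this
    have h2 : Real.log ((d : ℝ) + 1) ≤ d :=
      (Real.log_le_sub_one_of_pos (by linarith)).trans (by linarith)
    push_cast at this ⊢
    linarith
  have hl3 : Real.log ((d ^ 3 : ℕ) : ℝ) = 3 * Real.log d := by
    push_cast; rw [Real.log_pow]; norm_num
  have h2 : (0.69 : ℝ) < Real.log 2 := by linarith [Real.log_two_gt_d9]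
  have h3 : ((d : ℝ) + 1) ≤ Nat.primeCounting (d ^ 3) := by
    refine le_trans ?_ h1
    rw [hl3, le_div_iff₀ (by linarith)]
    have : ((d ^ 3 : ℕ) : ℝ) * 0.69 ≤ ((d ^ 3 : ℕ) : ℝ) * Real.log 2 := by gcongr
    have h4 : ((d : ℝ) + 1) * (3 * Real.log d) ≤ ((d : ℝ) + 1) * (3 * d) := by gcongr
    push_cast at this hl2 ⊢
    nlinarith [mul_nonneg (sub_nonneg.2 hd') (sq_nonneg (d : ℝ))]
  have h4 : d + 1 ≤ (Nat.primesLE (d ^ 3)).card := by
    rw [Nat.primesLE_card_eq_primeCounting]; exact_mod_cast h3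
  have h5 : d ≤ ((Nat.primesLE (d ^ 3)).erase 2).card := by
    have := Finset.pred_card_le_card_erase (s := Nat.primesLE (d ^ 3)) (a := 2)
    omega
  obtain ⟨P, hP, hc⟩ := Finset.exists_subset_card_eq h5
  refine ⟨P, hc, fun r hr => ?_⟩
  have := hP hr
  rw [Finset.mem_erase, Nat.mem_primesLE] at this
  exact ⟨this.2.2, this.1, this.2.1⟩

set_option maxHeartbeats 1000000 in
theorem lower (ε : ℝ) (hε : 0 < ε) : ∃ N0 : ℕ, ∀ N : ℕ, N0 ≤ N →
    ∃ A : Finset ℕ, A ⊆ Finset.Icc 1 N ∧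
      (∀ a d : ℕ, 0 < d → ¬ (a ∈ A ∧ a + d ∈ A ∧ a + 2 * d ∈ A ∧ a + 3 * d ∈ A)) ∧
      (N : ℝ) * Real.exp (-((2 * √(2 * Real.log (9 / 5)) + ε) * √(Real.log N))) ≤ A.card := by
  set a := Real.log (9 / 5) with ha
  have ha0 : 0 < a := Real.log_pos (by norm_num)
  have ha1 : a ≤ 1 := (Real.log_le_sub_one_of_pos (by norm_num)).trans (by norm_num)
  set κ := √(2 * a) with hκ
  have hκ2 : κ ^ 2 = 2 * a := Real.sq_sqrt (by linarith)
  have hκ0 : 0 < κ := Real.sqrt_pos.2 (by linarith)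
  set c := κ / a with hc
  have hac : a * c = κ := by rw [hc]; field_simp
  have hcκ : c * κ = 2 := by rw [hc]; field_simp; linarith
  have hc0 : 0 < c := by positivity
  have hc1 : 1 ≤ c := by
    rw [hc, le_div_iff₀ ha0]
    nlinarith
  set η := ε / (2 * c) with hη
  have hη0 : 0 < η := by positivity
  have hηc : η * c = ε / 2 := by rw [hη]; field_simp
  set θ := Real.exp (-(a + η)) with hθ
  have hθ0 : 0 < θ := Real.exp_pos _
  have hθ5 : 9 * θ < 5 := by
    have e1 : Real.exp (-a) = 5 / 9 := by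
      rw [Real.exp_neg, ha, Real.exp_log (by norm_num)]; norm_num
    have e2 : θ < Real.exp (-a) := Real.exp_lt_exp.2 (by linarith)
    linarith
  set p0 := 27 / (5 - 9 * θ) with hp0
  have E1 : ∀ᶠ s : ℝ in atTop, 6 ≤ s := eventually_ge_atTop _
  have E2 : ∀ᶠ s : ℝ in atTop, p0 * (c + 1) ≤ s := eventually_ge_atTop _
  set D := 24 * (c + 1) ^ 7 * Real.exp (a + η) with hD
  have hD0 : 0 < D := by positivity
  have E3 : ∀ᶠ s : ℝ in atTop, D * s ^ 7 ≤ Real.exp (ε / 2 * s) := by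
    have := (isLittleO_pow_exp_pos_mul_atTop 7 (show 0 < ε / 2 by positivity)).bound
      (show 0 < 1 / D by positivity)
    filter_upwards [this, eventually_ge_atTop 0] with s hs hs0
    rw [Real.norm_of_nonneg (by positivity), Real.norm_of_nonneg (by positivity)] at hs
    calc D * s ^ 7 ≤ D * (1 / D * Real.exp (ε / 2 * s)) := by gcongr
      _ = _ := by field_simp
  have T : Tendsto (fun N : ℕ => √(Real.log N)) atTop atTop :=
    Real.tendsto_sqrt_atTop.comp (Real.tendsto_log_atTop.comp tendsto_natCast_atTop_atTop)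
  obtain ⟨N0, hN0⟩ := eventually_atTop.1
    ((T.eventually (E1.and (E2.and E3))).and (eventually_ge_atTop 1))
  refine ⟨N0, fun N hN => ?_⟩
  obtain ⟨⟨h1, h2, h3⟩, hN1⟩ := hN0 N hN
  have hN' : (1 : ℝ) ≤ N := by exact_mod_cast hN1
  set L := Real.log N with hL
  have hL0 : 0 ≤ L := Real.log_nonneg hN'
  set s := √L with hs
  have hs2 : s ^ 2 = L := Real.sq_sqrt hL0
  set d := ⌈c * s⌉₊ with hd
  have d1 : c * s ≤ d := Nat.le_ceil _
  have d2 : (d : ℝ) ≤ c * s + 1 := (Nat.ceil_lt_add_one (by positivity)).le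
  have d3 : (d : ℝ) ≤ (c + 1) * s := by nlinarith
  have d6' : (6 : ℝ) ≤ d := by nlinarith
  have d6 : 6 ≤ d := by exact_mod_cast d6'
  have d0 : (0 : ℝ) < d := by linarith
  set X := Real.exp (L / d) with hX
  have hX1 : 1 ≤ X := Real.one_le_exp (by positivity)
  set q := ⌈X⌉₊ with hq
  have q1 : X ≤ q := Nat.le_ceil _
  have q2 : (q : ℝ) ≤ 2 * X := by
    have := (Nat.ceil_lt_add_one (show 0 ≤ X by linarith)).le
    linarith
  have q0 : 1 ≤ q := by
    have : (1 : ℝ) ≤ q := hX1.trans q1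
    exact_mod_cast this
  have hLd : p0 ≤ L / d := by
    rw [le_div_iff₀ d0]
    have hp00 : 0 ≤ p0 := by
      rw [hp0]; apply div_nonneg (by norm_num); linarith
    calc p0 * d ≤ p0 * ((c + 1) * s) := by gcongr
      _ = p0 * (c + 1) * s := by ring
      _ ≤ s * s := by gcongr
      _ = L := by rw [← hs2]; ring
  have hθq : ∀ p : ℕ, q ≤ p → 9 * θ * p + 27 ≤ 5 * p := by
    intro p hp
    have e1 : (q : ℝ) ≤ p := by exact_mod_cast hp
    have e2 : L / d + 1 ≤ X := Real.add_one_le_exp _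
    have e3 : p0 ≤ p := by linarith
    rw [hp0, div_le_iff₀ (by linarith)] at e3
    linarith
  obtain ⟨P, hPc, hP⟩ := primes_exist d d6
  obtain ⟨M, S, f, hb, hM, hS, -⟩ := prod_blk q (d ^ 3) θ hθ0.le q0 hθq P hP
  rw [hPc] at hb hM hS
  have hNM : N ≤ M := by
    have : (N : ℝ) ≤ (q : ℝ) ^ d := by
      calc (N : ℝ) = X ^ d := by
            rw [hX, ← Real.exp_nat_mul, mul_div_cancel₀ _ d0.ne', hL,
              Real.exp_log (by linarith)]
        _ ≤ _ := by gcongr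
    have : N ≤ q ^ d := by exact_mod_cast this
    omega
  obtain ⟨A, hA1, hA2, hA3⟩ := extract hb hN1 hNM (by omega)
  refine ⟨A, hA1, hA2, ?_⟩
  have hM0 : (0 : ℝ) < M := by
    have : 0 < M := by omega
    exact_mod_cast this
  set R : ℕ := d * (2 * (d ^ 3 * q) ^ 2) + 1 with hR
  have hR1 : (R : ℝ) ≤ 12 * (d : ℝ) ^ 7 * X ^ 2 := by
    have e1 : (R : ℝ) = 2 * (d : ℝ) ^ 7 * (q : ℝ) ^ 2 + 1 := by rw [hR]; push_cast; ring
    have e2 : (q : ℝ) ^ 2 ≤ (2 * X) ^ 2 := by gcongr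
    have e3 : (1 : ℝ) ≤ (d : ℝ) ^ 7 := one_le_pow₀ (by linarith)
    have e4 : (1 : ℝ) ≤ X ^ 2 := one_le_pow₀ hX1
    have e5 : (d : ℝ) ^ 7 * (q : ℝ) ^ 2 ≤ (d : ℝ) ^ 7 * (2 * X) ^ 2 := by gcongr
    have e6 : (1 : ℝ) ≤ (d : ℝ) ^ 7 * X ^ 2 := one_le_mul_of_one_le_of_one_le e3 e4
    have e7 : (d : ℝ) ^ 7 * (2 * X) ^ 2 = 4 * ((d : ℝ) ^ 7 * X ^ 2) := by ring
    rw [e1, mul_assoc, mul_assoc]
    linarith only [e5, e6, e7]
  have k1 : θ ^ d * N ≤ 2 * R * A.card := by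
    apply le_of_mul_le_mul_left _ hM0
    calc M * (θ ^ d * N) = (θ ^ d * M) * N := by ring
      _ ≤ S.card * N := by gcongr
      _ ≤ 2 * R * M * A.card := hA3
      _ = _ := by ring
  have k2 : X ^ 2 ≤ Real.exp (κ * s) := by
    rw [hX, ← Real.exp_nat_mul]
    apply Real.exp_le_exp.2
    push_cast
    rw [← mul_div_assoc, div_le_iff₀ d0]
    calc 2 * L = κ * s * (c * s) := by rw [← hs2, ← hcκ]; ring
      _ ≤ κ * s * d := by gcongr
  have k3 : Real.exp (-((κ + ε / 2) * s)) ≤ Real.exp (a + η) * θ ^ d := by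
    rw [hθ, ← Real.exp_nat_mul, ← Real.exp_add]
    apply Real.exp_le_exp.2
    have : (d : ℝ) * (a + η) ≤ (c * s + 1) * (a + η) := by gcongr
    have e : (c * s + 1) * (a + η) = (κ + ε / 2) * s + (a + η) := by
      rw [← hac, ← hηc]; ring
    linarith
  have k4 : Real.exp (a + η) * (2 * R) ≤ Real.exp (ε / 2 * s) * Real.exp (κ * s) := by
    calc Real.exp (a + η) * (2 * R) ≤ Real.exp (a + η) * (2 * (12 * (d : ℝ) ^ 7 * X ^ 2)) := by
          gcongr
      _ ≤ Real.exp (a + η) * (2 * (12 * ((c + 1) * s) ^ 7 * Real.exp (κ * s))) := by gcongr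
      _ = D * s ^ 7 * Real.exp (κ * s) := by rw [hD]; ring
      _ ≤ _ := by gcongr
  have hE : 0 < Real.exp (ε / 2 * s) * Real.exp (κ * s) := by positivity
  apply le_of_mul_le_mul_left _ hE
  calc Real.exp (ε / 2 * s) * Real.exp (κ * s) * (N * Real.exp (-((2 * κ + ε) * s)))
      = N * Real.exp (-((κ + ε / 2) * s)) := by
        rw [mul_comm (N : ℝ), ← mul_assoc, ← Real.exp_add, ← Real.exp_add, mul_comm (N : ℝ)]
        congr 2; ring
    _ ≤ N * (Real.exp (a + η) * θ ^ d) := by gcongr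
    _ = Real.exp (a + η) * (θ ^ d * N) := by ring
    _ ≤ Real.exp (a + η) * (2 * R * A.card) := by gcongr
    _ = Real.exp (a + η) * (2 * R) * A.card := by ring
    _ ≤ _ := by gcongr

end Vale.Agent.AP4
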